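import Vale.Agent.P144U.Rg.Sk
import Vale.Agent.P144E.Rg.Gen

/-!
Boundaries with isolated tips: universality for the classes of an engine.
-/

namespace Vale.Agent.P144Z

open Finset W.R5

namespace GU

section

variable {M : ℕ} [NeZero M] {u : Cor M} {σ γ γ' : ℝ} {K : ℕ}

theorem wt_mono (h : u.Wt σ γ) (h1 : γ ≤ γ') : u.Wt σ γ' :=
  h.imp fun _ h => ⟨h.1, h.2.mono (fun _ => le_rfl) h1⟩

theorem wt_zero (h : 0 ≤ γ) : (0 : Cor M).Wt σ γ :=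
  ⟨0, fun _ _ => by simp, fun _ => by simpa using h⟩

theorem wt_le (hσ : 0 ≤ σ) (h : u.Le K γ) : u.Wt σ (eR σ K * γ) := by
  obtain ⟨b, h1, h2, h3⟩ := h
  have h0 : ∀ X, 0 ≤ b X := fun X => (abs_nonneg _).trans (h1 X fun _ => true)
  refine ⟨b, h1, fun y => ?_⟩
  refine le_trans ?_ (mul_le_mul_of_nonneg_left (h3 y) (Real.exp_pos _).le)
  rw [mul_sum]
  refine sum_le_sum fun X hX => ?_
  rw [mul_comm]
  by_cases h5 : b X = 0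
  · rw [h5, mul_zero, mul_zero]
  · refine mul_le_mul_of_nonneg_right (Real.exp_le_exp.2 (mul_le_mul_of_nonneg_left ?_ hσ)) (h0 X)
    exact_mod_cast Nat.add_le_add_left
      (R5.stein_le_of_ball fun x hx => h2 X h5 x hx y (mem_filter.1 hX).2) 1

theorem wt_sm (hσ : 0 ≤ σ) (h : u.Sm K γ γ') :
    u.Wt σ (eR σ 1 * γ + eR σ (2 * K + 2) * γ') := by
  obtain ⟨c₁, c₂, rfl, h1, h2⟩ := h
  obtain ⟨b₁, h3, h4⟩ := wt_le hσ h1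
  obtain ⟨b₂, h5, h6⟩ := wt_le hσ h2
  exact ⟨_, fun X n => (abs_add_le _ _).trans (add_le_add (h3 X n) (h5 X n)), h4.add h6⟩

end

variable {Q : Cls} {q : Par} {Zσ Zε Z a a' c c' η₁ σ γ γ' : ℝ} {L m m' : ℕ}

theorem main_anti (h : MainU Q q Zσ Zε L m σ γ) (h1 : m' ≤ m) : MainU Q q Zσ Zε L m' σ γ :=
  fun N Λ Γ H a1 a2 => by
    obtain ⟨C, h⟩ := h N Λ Γ H a1 a2
    refine ⟨C, fun ε hε => ?_⟩
    obtain ⟨J₀, h⟩ := h ε hε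
    exact ⟨J₀, fun J hJ M _ P B Δ ι _ _ y d n K b1 => h J hJ M P B Δ ι y d n K (b1.trans h1)⟩

theorem en_anti (h : EnU Q q L m σ γ) (h1 : m' ≤ m) (h2 : γ' ≤ γ) : EnU Q q L m' σ γ' :=
  fun N Λ Γ a1 ε hε => by
    obtain ⟨J₀, h⟩ := h N Λ Γ a1 ε hε
    exact ⟨J₀, fun J hJ M _ P B Δ Δ' ι _ _ y d n b0 D b1 b2 b3 b4 b5 =>
      h J hJ M P B Δ Δ' ι y d n (b0.trans h1) D b1 (wt_mono b2 h2) b3 b4 (wt_mono b5 h2)⟩

theorem main_par (h : MainU Q par0 Zσ Zε L m σ γ) (h1 : 0 ≤ γ) : MainU Q par0 1 1 L m σ γ :=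
  fun N Λ Γ H a1 a2 => by
    obtain ⟨C, h⟩ := h N Λ Γ H a1 a2
    refine ⟨C, fun ε hε => ?_⟩
    obtain ⟨J₀, h⟩ := h (ε / 2) (half_pos hε)
    refine ⟨J₀, fun J hJ M _ P B Δ ι _ _ y d n K b0 D b1 b2 b3 b4 b5 => ?_⟩
    obtain ⟨c1, c2⟩ := h J hJ M P B Δ ι y d n K b0 D b1 b2 b3 b4 b5
    obtain ⟨c3, -⟩ := h J hJ M P B 0 ι y d n K b0 D (Cor.ok_zero _) (wt_zero h1)
      (fun _ _ _ => rfl) b4 b5
    rw [abs_sub_comm] at c3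
    refine ⟨?_, c2⟩
    rw [one_pow, one_pow, one_mul, one_mul]
    exact (abs_sub_le _ _ _).trans ((add_le_add c1 c3).trans (le_of_eq (by ring)))

theorem flowD_mono {g : Geo} {u : Cor g.M} {w b h : ℝ} (H : g.FlowD L q u Z w a b h)
    (ha : a ≤ a') : g.FlowD L q u Z w a' b h :=
  ⟨H.conv, H.conv0, fun j hj => FM.anch_le (H.early j hj) (by gcongr), H.early0, H.flow0,
    H.last, H.size⟩

theorem flowQ_mono (h : FlowQ Q q L m σ γ Z a) (ha : a ≤ a') : FlowQ Q q L m σ γ Z a' :=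
  fun Λ H hH => by
    obtain ⟨w, hw, b, hb, J₀, h⟩ := h Λ H hH
    exact ⟨w, hw, b, hb, J₀, fun g a1 a2 a3 a4 a5 u a6 a7 a8 =>
      flowD_mono (h g a1 a2 a3 a4 a5 u a6 a7 a8) ha⟩

theorem flowQV_mono (h : FlowQV Q q L m σ γ Z a c c' η₁) (ha : a ≤ a') :
    FlowQV Q q L m σ γ Z a' c c' η₁ := fun K => by
  obtain ⟨θ, hθ, h⟩ := h K
  refine ⟨θ, hθ, fun Λ H hH => ?_⟩
  obtain ⟨w, hw, b, hb, J₀, h⟩ := h Λ H hH
  exact ⟨w, hw, b, hb, J₀, fun g a1 a2 a3 a4 a5 u a6 a7 a8 =>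
    (h g a1 a2 a3 a4 a5 u a6 a7 a8).imp_left fun H => flowD_mono H ha⟩

theorem univ_of (hσ : 0 ≤ σ) (hγ : 0 < γ) : ∃ η > (0 : ℝ), η ≤ γ ∧ ∀ R : ℕ, ∃ δ > (0 : ℝ),
    ∀ (Q : Cls) (q : Par) (Zσ Zε : ℝ) (L m : ℕ), q.R = R → Crit L q η δ →
    MainU Q q Zσ Zε L m σ γ → EnU Q q L m σ γ → UnivU Q q Zσ Zε L m := by
  obtain ⟨C₂, hC₂, h⟩ := cor_reg
  have e1 := one_le_eR hσ 1
  refine ⟨γ / (4 * (eR σ 1 * C₂)), by positivity, div_le_self hγ.le (by nlinarith), fun R => ?_⟩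
  obtain ⟨C₃, hC₃, h⟩ := h R
  have e2 := one_le_eR hσ (2 * R + 2)
  refine ⟨γ / (4 * (eR σ (2 * R + 2) * C₃)), by positivity, fun Q q Zσ Zε L m hR hq h1 h2 =>
    ⟨σ, γ / 2, γ / 2, hσ, half_pos hγ, fun M _ R' => ?_, by rwa [add_halves],
      by rwa [add_halves]⟩⟩
  obtain ⟨k1, k2, k3⟩ := h M R' q _ _ hR hq.ok hq.x hq.small
  refine ⟨k1, k2, wt_mono (wt_sm hσ k3) (le_of_eq ?_)⟩
  rw [hR]
  field_simp
  ring

theorem univJK (h : UnivJU Q q Zσ Zε L (m + 1) c' η₁) : UnivJK Q q Zσ Zε L c' η₁ m := by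
  obtain ⟨σ, γ, hσ, hγ, h1, h2⟩ := h
  intro K₁
  have e1 := one_le_eR hσ K₁
  have wt : ∀ {M : ℕ} [NeZero M] {v : Cor M}, v.Le K₁ (γ / eR σ K₁) → v.Wt σ γ := fun h =>
    wt_mono (wt_le hσ h) (le_of_eq (by field_simp))
  refine ⟨γ / eR σ K₁, by positivity, fun K => ?_, fun N Λ Γ a1 ε hε => ?_⟩
  · obtain ⟨θ, hθ, h⟩ := h1 K
    refine ⟨θ, hθ, fun N Λ Γ hΓ => ?_⟩
    obtain ⟨C, h⟩ := h N Λ Γ hΓ
    refine ⟨C, fun ε hε => ?_⟩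
    obtain ⟨J₀, h⟩ := h ε hε
    refine ⟨J₀, fun J hJ M _ P v k s u ν o O a1 a2 a3 a4 a5 a6 a7 a8 => ?_⟩
    obtain ⟨z, z1, z2⟩ := h J hJ M P v k s u ν o O a1 a2 (wt a3) a4 a5 a6 a7 a8
    exact ⟨z, z1, fun B ι _ _ y d n K' b => z2 B ι y d n K' (b.trans m.le_succ)⟩
  · obtain ⟨J₀, h⟩ := h2 N Λ Γ a1 ε hε
    exact ⟨J₀, fun J hJ M _ P B Δ ι _ _ y d n b0 D b1 b2 b3 =>
      h J hJ M P B Δ 0 ι y d n (b0.trans (Nat.le_add_left 1 m)) D b1 (wt b2) b3 (Cor.ok_zero _)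
        (wt_zero hγ.le) fun _ _ _ => rfl⟩

theorem univU_anti (h : UnivU Q q Zσ Zε L m) (h1 : m' ≤ m) : UnivU Q q Zσ Zε L m' := by
  obtain ⟨σ, γ, θ, a1, a2, a3, a4, a5⟩ := h
  exact ⟨σ, γ, θ, a1, a2, a3, main_anti a4 h1, en_anti a5 h1 le_rfl⟩

theorem sch_QU (L : ℕ) (ε : ℝ) (k N : ℕ) : (QU L ε k N).Sch L √(ε * L) := by
  rintro g - - - ⟨Tp, -, ⟨c₁, h1, h2, h3⟩, c₂, h4, h5, h6⟩ j hj z hz
  rcases lt_or_ge j k with h | h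
  · obtain ⟨κ, s, n₂, -, -, -, -, a⟩ := h3 j h
    exact W.R4a.shr_mono (a.sch z hz) (by positivity) (mul_le_mul_of_nonneg_right
      (Real.le_sqrt_of_sq_le h2) (Real.sqrt_nonneg _))
  · obtain ⟨κ, s, n₂, -, -, -, -, a⟩ := h6 j h hj
    exact W.R4a.shr_mono (a.sch z hz) (by positivity) (mul_le_mul_of_nonneg_right
      (Real.le_sqrt_of_sq_le h5) (Real.sqrt_nonneg _))

end GU

open GU Mn in
theorem genJU_of (hF : FlowSU) (hM : MainSU) : GenJU := by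
  obtain ⟨ε₁, hε₁, hI⟩ := hF
  obtain ⟨L₁, hL₁, hP⟩ := flowU
  refine ⟨ε₁, hε₁, fun c' hc' => ?_⟩
  obtain ⟨η₁, hη₁, L₂, hI⟩ := hI c' hc'
  refine ⟨η₁, hη₁, max (max L₁ L₂) 64, fun L hL G hG => ?_⟩
  simp only [ge_iff_le, max_le_iff] at hL
  obtain ⟨⟨l1, l2⟩, l3⟩ := hL
  obtain ⟨C, hC, ηa, hηa, hP⟩ := hP L l1
  obtain ⟨C', hC', σ, hσ, ηb, hηb, hI⟩ := hI L l2 G hG
  have key : ∀ ε > 0, ∃ η > 0, ∀ R : ℕ, ∃ δ > 0, ∀ q : Par, q.R = R → Crit L q η δ →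
      ∃ Zσ Zε : ℝ, |Zσ - 1| < ε ∧ |Zε - 1| < ε ∧ MainOK q Zσ Zε ∧ ∀ (N : ℕ) (Q : Cls) (c : ℝ),
        1 ≤ c → c ^ 2 ≤ ε₁ * L → G N Q → Q.Sch L c → MainU Q q Zσ Zε L N σ η ∧
          EnU Q q L N σ η ∧ UnivJU Q q Zσ Zε L N c' η₁ := fun ε hε => by
    set E := C + C' with hE
    have hE0 : 0 < E := by linarith
    set η := min (min ηa ηb) (min ε 1 / (20000 * E)) with hη
    have hm0 : 0 < min ε 1 := lt_min hε one_pos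
    have hη0 : 0 < η := by positivity
    have hCη : E * η ≤ min ε 1 / 20000 := by
      calc E * η ≤ E * (min ε 1 / (20000 * E)) :=
            mul_le_mul_of_nonneg_left (min_le_right _ _) hE0.le
        _ = _ := by field_simp
    have hm1 := min_le_left ε 1
    have hm2 := min_le_right ε 1
    obtain ⟨m1, m2⟩ := le_min_iff.1 (min_le_left _ _ : η ≤ min ηa ηb)
    refine ⟨η, hη0, fun R => ?_⟩
    obtain ⟨δa, hδa, hP⟩ := hP η hη0 m1 R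
    obtain ⟨δb, hδb, hI⟩ := hI η hη0 m2 R
    refine ⟨min δa δb, by positivity, fun q hR hq => ?_⟩
    obtain ⟨Z, z1, z2, z3, hP⟩ := hP q hR (hq.mono le_rfl (min_le_left _ _))
    replace hI := hI q hR (hq.mono le_rfl (min_le_right _ _)) Z z2 z3
    have e1 : C * η ≤ E * η := mul_le_mul_of_nonneg_right (by linarith) hη0.le
    have e2 : C' * η ≤ E * η := mul_le_mul_of_nonneg_right (by linarith) hη0.le
    have hP' : MN.Pl L q Z (E * η) C := fun N₀ Λ hΛ => by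
      obtain ⟨w, hw, J₀, hP⟩ := hP N₀ Λ hΛ
      refine ⟨w, hw, J₀, fun J hJ r h1 h2 => ?_⟩
      obtain ⟨M₀, hP⟩ := hP J hJ r h1 h2
      exact ⟨M₀, fun g a1 a2 a3 N a4 a5 => (hP g a1 a2 a3 N a4 a5).mono e1 le_rfl⟩
    obtain ⟨w, J₀, h⟩ := MN.exists_ref l3 hq.ok hP'
    obtain ⟨s, hs, hs'⟩ := exists_sigma l3 (w := w) (J₀ := J₀) fun i => h (J₀ + i) (by omega) _
      le_rfl (Nat.mul_le_mul_left _ (sc_mono (by omega) (by omega)))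
    have hZ : 1 / 2 ≤ Z := by
      have := abs_le.1 z1
      linarith
    refine ⟨Real.exp s, Z, ?_, by linarith, MN.main_plane l3 hq.ok hP' hs',
      fun N Q c hc hcL hQ hS => ?_⟩
    · have := Real.abs_exp_sub_one_le (x := s) (by linarith)
      linarith
    obtain ⟨k1, k2⟩ := hI N Q hQ
    obtain ⟨k3, k4⟩ := hM L N q Z (E * η) C s σ η Q l3 hq.ok (by positivity)
    have k5 := k3 (flowQ_mono k1 e2)
    exact ⟨(k4 hZ hP' hs').1 (flowQ_mono k1 e2), k5, σ, η / C', hσ, by positivity,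
      ((hM L N q Z (E * η) C s σ (η / C') Q l3 hq.ok (by positivity)).2 hZ hP' hs').2 c c' η₁ hS
        (flowQV_mono (k2 c hc hcL) e2), en_anti k5 le_rfl (div_le_self hη0.le hC')⟩
  refine ⟨fun N Q c h1 h2 hQ hS => ?_, fun ε hε => ?_⟩
  · obtain ⟨η, hη, h⟩ := key 1 one_pos
    obtain ⟨δ, hδ, h⟩ := h 0
    obtain ⟨η', hη', -, hU⟩ := univ_of hσ hη
    obtain ⟨δ', hδ', hU⟩ := hU 0
    obtain ⟨Zσ, Zε, -, -, -, h⟩ := h _ rfl (crit_par0 L _ _ hη.le hδ.le)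
    obtain ⟨k1, k2, k3⟩ := h N Q c h1 h2 hQ hS
    exact ⟨hU Q _ 1 1 L N rfl (crit_par0 L _ _ hη'.le hδ'.le) (main_par k1 hη.le) k2, Zσ, Zε, k3⟩
  · obtain ⟨η, hη, h⟩ := key ε hε
    obtain ⟨η', hη', e, hU⟩ := univ_of hσ hη
    refine ⟨η', hη', fun R => ?_⟩
    obtain ⟨δ, hδ, h⟩ := h R
    obtain ⟨δ', hδ', hU⟩ := hU R
    refine ⟨min δ δ', by positivity, fun q hR hq => ?_⟩
    obtain ⟨Zσ, Zε, z1, z2, z3, h⟩ := h q hR (hq.mono e (min_le_left _ _))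
    refine ⟨Zσ, Zε, z1, z2, z3, fun N Q c h1 h2 hQ hS => ?_⟩
    obtain ⟨k1, k2, k3⟩ := h N Q c h1 h2 hQ hS
    exact ⟨hU Q q Zσ Zε L N hR (hq.mono le_rfl (min_le_right _ _)) k1 k2, k3⟩

open GU in
theorem genT_of (hE : EngT) (hG : GenJU) : GenT := by
  obtain ⟨ε₀, hε₀, hE⟩ := hE
  obtain ⟨ε₁, hε₁, hG⟩ := hG
  refine ⟨min ε₀ ε₁, by positivity, fun ε hε hε' c' hc' => ?_⟩
  obtain ⟨e1, e2⟩ := le_min_iff.1 hε'
  obtain ⟨L₁, hE⟩ := hE ε hε e1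
  obtain ⟨η₁, hη₁, L₂, hG⟩ := hG c' hc'
  refine ⟨η₁, hη₁, max (max L₁ L₂) ⌈1 / ε⌉₊, fun L hL => ?_⟩
  simp only [ge_iff_le, max_le_iff] at hL
  obtain ⟨⟨l1, l2⟩, l3⟩ := hL
  obtain ⟨kf, hE⟩ := hE L l1
  obtain ⟨h1, h2⟩ := hG L l2 _ hE
  have c0 : 1 ≤ ε * L := by
    rw [mul_comm]
    exact (div_le_iff₀ hε).1 (Nat.ceil_le.1 l3)
  have c1 : 1 ≤ √(ε * L) := Real.one_le_sqrt.2 c0
  have c2 : √(ε * L) ^ 2 ≤ ε₁ * L := by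
    rw [Real.sq_sqrt (by linarith)]
    exact mul_le_mul_of_nonneg_right e2 (Nat.cast_nonneg L)
  refine ⟨fun m N => kf (m + 1) N, fun m N k hk => ?_, fun ε' hε' => ?_⟩
  · obtain ⟨k1, Zσ, Zε, k2⟩ := h1 (m + 1) _ _ c1 c2 ⟨N, k, hk, rfl⟩ (sch_QU L ε k N)
    exact ⟨univU_anti k1 m.le_succ, Zσ, Zε, univJK k2⟩
  · obtain ⟨η, hη, h⟩ := h2 ε' hε'
    refine ⟨η, hη, fun R => ?_⟩
    obtain ⟨δ, hδ, h⟩ := h R
    refine ⟨δ, hδ, fun q hR hq => ?_⟩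
    obtain ⟨Zσ, Zε, z1, z2, z3, h⟩ := h q hR hq
    refine ⟨Zσ, Zε, z1, z2, z3, fun m N k hk => ?_⟩
    obtain ⟨k1, k2⟩ := h (m + 1) _ _ c1 c2 ⟨N, k, hk, rfl⟩ (sch_QU L ε k N)
    exact ⟨univU_anti k1 m.le_succ, univJK k2⟩

end Vale.Agent.P144Z
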