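import Vale.Agent.P144U.Rg.Sk
import Vale.Agent.P144D.I.V.MainA
import Vale.Agent.P144E.Rg.En

/-!
# From the flows to the main estimates, with weighted corrections
-/

namespace Vale.Agent.P144Z.UM

open Finset Matrix Geo

theorem card_bare (g : Geo) (A' : Gauge g.M) (m : ℕ) : Fintype.card (Mn.bare g A').K ≤ m := by
  have : IsEmpty (Mn.bare g A').K := ⟨fun i => i.elim⟩
  rw [Fintype.card_eq_zero]
  exact Nat.zero_le m

theorem card_one (g : Geo) (A' : Gauge g.M) (i : g.K) {m : ℕ} (h : Fintype.card g.K ≤ m) :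
    Fintype.card (Mn.one g A' i).K ≤ m := by
  have h1 : Fintype.card (Mn.one g A' i).K ≤ 1 := Fintype.card_le_one_iff.2 fun _ _ => rfl
  have h2 : 0 < Fintype.card g.K := Fintype.card_pos_iff.2 ⟨i⟩
  omega

section

open Mn hiding Br Gd WW WW_eq br_good en_eq exc_sub mix_eq ok_bare ok_one ps_br ps_cf ps_wt see_en
  ss top_le
open MN hiding sep_ff sep_fs flat' br_good not_exc medium WW_zero large err ss_eq final
open Vale.Agent.P144Z.IO hiding main0

theorem main0 {L m : ℕ} {q : Par} {Z a b σ η δ : ℝ} {Q : Cls} (hL : 64 ≤ L) (hq : q.Ok)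
    (ha : 0 ≤ a) (hZ : 1 / 2 ≤ Z) (hF : MN.Pl L q Z a b) (hσ : MN.Sg L q Z a b σ)
    (hD : FlowQ Q q L m η δ Z a) (n k Λ : ℕ) (Γ : ℝ) (hΓ : 1 ≤ Γ) :
    ∃ B : ℝ, ∀ ε > 0, ∃ J₀ : ℕ, ∀ (g : Geo) (A' : Gauge g.M) (r : ℕ), J₀ ≤ g.J →
      Fintype.card g.K = k → k ≤ m → g.Dom0 A' L n Λ r Γ → Q g.M g.A g.J → Q g.M A' g.J →
      ∀ u : Cor g.M, u.Ok → u.Off A' → u.Wt η δ → ∀ K : ℝ, g.LastB (sc L g.J) Γ K →
        |g.mixD A' q u - Real.exp σ ^ n * Z ^ k * g.mixD A' par0 0| ≤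
          ε / (r : ℝ) ^ k * (K / |Zw par0 A' 1|) ∧
        |g.mixD A' par0 0| ≤ B / (r : ℝ) ^ k * (K / |Zw par0 A' 1|) := by
  obtain ⟨Cg, hCg, hg⟩ := LM.lastB_gap
  have hh : Γ ≤ Cg * Γ := le_mul_of_one_le_left (by linarith) hCg
  obtain ⟨w, hw, b', hb', J₁, hD⟩ := hD (8 * Λ * L) (Cg * Γ) (by linarith)
  obtain ⟨w₂, J₂, hR⟩ := exists_ref hL hq hF
  have hP : 0 < (8 * L / w) ^ k := by have : (0 : ℝ) < L := by positivity
                                      positivity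
  refine ⟨(8 * L / w) ^ k * (2 ^ k * Real.exp (4 * k)), fun ε hε => ?_⟩
  set s := (8 * L / w) ^ k * (Real.exp (n * σ) * Real.exp (4 * k) * 10) with hs
  have hs0 : 0 < s := by positivity
  obtain ⟨J₃, hJ₃⟩ := small_e (8 * k + 1) (Real.exp 1) b' (cE L Λ n k * a)
    (ε := min (1 / 2) (ε / s)) (by positivity)
  refine ⟨max (max J₁ J₂) (max J₃ (q.R + 1)), fun g A' r hJ hk hm D Q1 Q0 u hu hoff hsm K H =>
    ?_⟩
  simp only [max_le_iff] at hJ
  obtain ⟨⟨k1, k2⟩, k3, k4⟩ := hJ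
  have h1 := D.lo
  have h2 := D.Mlo
  have h3 : g.J < sc L g.J := by
    have := Nat.lt_pow_self (n := g.J) (show 1 < L by omega)
    unfold sc
    omega
  have h4 := sc_mono (L := L) (by omega) (show 1 ≤ g.J by omega)
  have h5 : sc L 1 = 8 * L := by simp [sc]
  have hM : g.M ≤ 8 * Λ * L * sc L g.J := by
    calc g.M ≤ Λ * (8 * sc L (g.J + 1)) := D.Mhi.trans (Nat.mul_le_mul_left _ D.hi)
      _ = _ := by rw [sc_eq (Nat.le_succ g.J)]; simp; ring
  have n1 : ∀ f, flux A' f ≠ -1 := fun f e => by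
    rw [D.fl] at e
    split_ifs at e with h
    · norm_num at e
    · exact h e
  have n2 : ∀ f, flux g.A f = 1 → flux A' f = 1 := fun f e => by
    rw [D.fl, e, ite_self]
  have h6 : 16 * sc L g.J ≤ g.M := by omega
  have h7 : 16 * (q.R + 1) ≤ g.M := by omega
  have F := hD g k1 ⟨D.ok, D.on, h6, h7, ⟨fun f a f' b c => D.sep.ff f a f' b (by omega),
    fun i f hf => D.sep.fs i f (by omega), fun i i' e => h1.trans_lt (D.sep.ss i i' e)⟩⟩
    (hk.trans_le hm) Q1 hM u hu (fun X hX => hoff X fun x hx => n2 x (hX x hx)) hsm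
  have F0 := hD (bare g A') k1 ⟨ok_bare D.w, fun i => i.elim, h6, h7,
    ⟨fun f e => absurd e (n1 f), fun i => i.elim, fun i => i.elim⟩⟩ (card_bare g A' m) Q0 hM u hu
    hoff hsm
  have F1 := fun i => hD (one g A' i) k1 ⟨ok_one D.ok D.w i, fun _ => D.on i, h6, h7,
    ⟨fun f e => absurd e (n1 f), fun _ f hf => n2 f (D.sep.fs i f (le_trans hf h1)),
      fun _ _ e => absurd rfl e⟩⟩ (card_one g A' i (hk.trans_le hm)) Q0 hM u hu hoff hsm
  obtain ⟨G, A₀, N, f₀, hG, hf₀, D₀⟩ := hR g.J k2 r h1 D.hi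
  have hK := lastB_nonneg (by omega) (by linarith) H
  obtain ⟨r1, r2⟩ := final D (σ := σ) (by omega) (by omega) hq (by omega) hu hw ha hb'.le
    (by linarith) F F0 F1 (lastB_mono (by omega) (by linarith) H hh)
    (hg (bare g A') D.w _ (by omega) Γ hΓ D.gap _ le_rfl)
    (fun i => hg (one g A' i) D.w _ (by omega) Γ hΓ D.gap _ le_rfl)
    (fun f hf => by
      rw [ss_eq D hq (by omega) hu hoff D₀ hG hf hf₀, ← hG]
      exact hσ _ _ _ _ _ _ _ D₀ _ hf₀) hk (hJ₃ g.J k3) (min_le_left _ _)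
  have hr0 : (0 : ℝ) < (r : ℝ) ^ k := pow_pos (by exact_mod_cast (by omega : 0 < r)) k
  have p1 := pow_r hw D.hi k
  have hy : 0 ≤ K / |Zw par0 A' 1| := by positivity
  generalize K / |Zw par0 A' 1| = y at *
  generalize (w * sc L g.J) ^ k = β at *
  constructor
  · rw [div_mul_eq_mul_div, le_div_iff₀ hr0]
    refine (mul_le_mul_of_nonneg_left p1 (abs_nonneg _)).trans ?_
    rw [mul_left_comm, mul_comm _ β]
    refine (mul_le_mul_of_nonneg_left r1 hP.le).trans ?_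
    have := mul_le_mul_of_nonneg_right ((le_div_iff₀ hs0).1 (min_le_right (1 / 2) (ε / s))) hy
    rw [hs] at this ⊢
    linarith
  · rw [div_mul_eq_mul_div, le_div_iff₀ hr0]
    refine (mul_le_mul_of_nonneg_left p1 (abs_nonneg _)).trans ?_
    rw [mul_left_comm, mul_comm _ β, mul_assoc, mul_assoc]
    refine mul_le_mul_of_nonneg_left ?_ hP.le
    have hβ : 0 ≤ β := nonneg_of_mul_nonneg_right (hr0.le.trans p1) hP
    have z1 : 1 ≤ 2 ^ k * |Z ^ k| := by
      rw [abs_of_nonneg (by positivity), ← mul_pow]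
      exact one_le_pow₀ (by linarith)
    rw [abs_mul] at r2
    have z2 := mul_le_mul_of_nonneg_left r2 (by positivity : (0 : ℝ) ≤ 2 ^ k)
    have z3 := mul_le_mul_of_nonneg_right z1 (mul_nonneg hβ (abs_nonneg (g.mixD A' par0 0)))
    linarith

theorem mainU_of {L m : ℕ} {q : Par} {Z a b σ η δ : ℝ} {Q : Cls} (hL : 64 ≤ L) (hq : q.Ok)
    (ha : 0 ≤ a) (hZ : 1 / 2 ≤ Z) (hF : MN.Pl L q Z a b) (hσ : MN.Sg L q Z a b σ)
    (hD : FlowQ Q q L m η δ Z a) : MainU Q q (Real.exp σ) Z L m η δ := by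
  intro N Λ Γ H hΓ hH
  choose B h using fun p : ℕ × ℕ =>
    main0 hL hq ha hZ hF hσ hD p.1 p.2 Λ (max Γ H) (le_max_of_le_left hΓ)
  refine ⟨∑ p ∈ range (N + 1) ×ˢ range (N + 1), |B p|, fun ε' hε' => ?_⟩
  choose J₀ h using fun p => h p ε' hε'
  refine ⟨(range (N + 1) ×ˢ range (N + 1)).sup J₀,
    fun J hJ M _ P S Δ ι _ _ y d n K hm D h1 h2 h3 hK hl => ?_⟩
  have h8 := FM.eight_le_sc (L := L) (by omega) J
  have hn : n ≤ (univ.filter fun f => flux S f = -1).card := by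
    rw [← D.cnt]
    exact card_le_card fun f hf =>
      mem_filter.2 ⟨mem_univ _, Both.flux_B D.P_ok D.str.sign (mem_filter.1 hf).2⟩
  have hp : (n, Fintype.card ι) ∈ range (N + 1) ×ˢ range (N + 1) := by
    have := D.card
    simp only [mem_product, mem_range]
    omega
  have hZ' : 0 < |Zw par0 P 1| := abs_pos.2 (Both.ne_zero D.gap)
  obtain ⟨k1, k2⟩ := h (n, Fintype.card ι) (geoD M (P * S) y d J) P (8 * sc L J)
    ((le_sup hp).trans hJ) rfl hm (dom0_of (by omega)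
      { D with
        gap := fun φ => (D.gap φ).trans (mul_le_mul_of_nonneg_right
          (by have := le_max_left Γ H; gcongr) (C.dot_nonneg _)) }) D.bd D.bd0 Δ h1 h3 h2 _
    (Both.lastB_mono hl (by change 1 ≤ sc L J; omega) hH (le_max_right _ _) (by positivity))
  replace k1 := k1.trans_eq (congrArg _ (mul_div_cancel_right₀ K hZ'.ne'))
  replace k2 := k2.trans_eq (congrArg _ (mul_div_cancel_right₀ K hZ'.ne'))
  have e1 : (0 : ℝ) < (sc L J : ℝ) ^ Fintype.card ι := by positivity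
  have e2 : (sc L J : ℝ) ^ Fintype.card ι ≤ ((8 * sc L J : ℕ) : ℝ) ^ Fintype.card ι :=
    pow_le_pow_left₀ (by positivity) (by exact_mod_cast (by omega)) _
  refine ⟨k1.trans (by gcongr), k2.trans (mul_le_mul_of_nonneg_right ?_ hK)⟩
  have e3 : |B (n, Fintype.card ι)| ≤ ∑ p ∈ range (N + 1) ×ˢ range (N + 1), |B p| :=
    single_le_sum (f := fun p => |B p|) (fun _ _ => abs_nonneg _) hp
  exact (div_le_div_of_nonneg_right (le_abs_self _) (e1.le.trans e2)).trans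
    (div_le_div₀ ((abs_nonneg _).trans e3) e3 e1 e2)

theorem enU_of {L m : ℕ} {q : Par} {Z a η δ : ℝ} {Q : Cls} (hL : 64 ≤ L) (hq : q.Ok) (ha : 0 ≤ a)
    (hD : FlowQ Q q L m η δ Z a) : EnU Q q L m η δ := by
  intro N Λ Γ hΓ ε hε
  obtain ⟨Cg, hCg, hg⟩ := LM.lastB_gap
  have hh : Γ ≤ Cg * Γ := le_mul_of_one_le_left (by linarith) hCg
  obtain ⟨w, hw, b, hb, J₁, hD⟩ := hD Λ (Cg * Γ) (by linarith)
  obtain ⟨J₂, hJ₂⟩ := small_e 16 (Real.exp 1) b ((8 * Λ * L + 1) ^ 2 * (a * 6144))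
    (ε := min 1 (w * ε)) (by positivity)
  refine ⟨max J₁ (max J₂ (q.R + 1)),
    fun J hJ M _ P B Δ Δ' ι _ _ y d n hm D h1 h2 h3 h4 h5 h6 k => ?_⟩
  simp only [ge_iff_le, max_le_iff] at hJ
  obtain ⟨k1, k2, k3⟩ := hJ
  have D₀ := dom0_of (by omega) D
  have l1 := D.lo
  have l2 : J < sc L J := by
    have := Nat.lt_pow_self (n := J) (show 1 < L by omega)
    unfold sc
    omega
  have l3 := sc_mono (L := L) (by omega) (show 1 ≤ J by omega)
  have l4 : sc L 1 = 8 * L := by simp [sc]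
  have n1 : ∀ f, flux P f ≠ -1 := fun f e => by
    have e' := (D₀.fl f).symm.trans e
    split_ifs at e' with h
    · norm_num at e'
    · exact h e'
  have ok := ok_one D₀.ok D₀.w k
  have sp : (one (geoD M (P * B) y d J) P k).SepW (8 * sc L J) :=
    ⟨fun f e => absurd e (n1 f), fun _ f hf => (D₀.fl f).trans (by
      rw [D₀.sep.fs k f hf, ite_self]), fun _ _ e => absurd rfl e⟩
  have m1 : 16 * sc L J ≤ M := by omega
  have m2 : 16 * (q.R + 1) ≤ M := by omega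
  have F := hD (one (geoD M (P * B) y d J) P k) k1 ⟨ok, fun _ => rfl, m1, m2, sp⟩
    (card_one (geoD M (P * B) y d J) P k hm) D.bd0 D.hi
  obtain ⟨e1, e2⟩ := le_min_iff.1 (hJ₂ J k2)
  have e3 : 0 ≤ (8 * Λ * L + 1 : ℝ) ^ 2 * (a * 6144) / 2 ^ J := by positivity
  have := en_close D₀ (by omega) (by omega) hq m2 h1 h4 h3 h6 hw ha (by linarith) k
    (F Δ h1 h3 h2) (F Δ' h4 h6 h5) (hg _ D₀.w _ (by change 8 ≤ sc L J; omega) Γ hΓ D.gap _ le_rfl)
    le_rfl (by change _ * (Real.exp (b / 2 ^ J) - 1) ≤ _; linarith)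
  rw [mul_assoc] at this
  exact le_of_mul_le_mul_left (this.trans e2) hw

end

section

open Mn Vale.Agent.P144Z.IO Vale.Agent.P144Z.IV

theorem mainJU_of {L m : ℕ} {q : Par} {Z a b σ c c' η₁ η δ : ℝ} {Q : Cls} (hL : 64 ≤ L)
    (hq : q.Ok) (ha : 0 ≤ a) (hZ : 1 / 2 ≤ Z) (hF : MN.Pl L q Z a b) (hσ : MN.Sg L q Z a b σ)
    (hQ : Q.Sch L c) (hD : FlowQV Q q L m η δ Z a c c' η₁) :
    MainJU Q q (Real.exp σ) Z L m c' η₁ η δ := by
  classical
  intro K
  obtain ⟨θ, hθ, hD⟩ := hD K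
  refine ⟨θ, hθ, fun N Λ Γ hΓ => ?_⟩
  obtain ⟨Cg, hCg, hg⟩ := LM.lastB_gap
  obtain ⟨Ce, hCe, he⟩ := lastE_gap
  have g1 : Cg * Γ ≤ (Cg + Ce) * Γ := by nlinarith
  have g2 : Ce * Γ ≤ (Cg + Ce) * Γ := by nlinarith
  have hh : 0 < (Cg + Ce) * Γ := by positivity
  obtain ⟨w, hw, b', hb', J₁, hD⟩ := hD Λ _ hh
  obtain ⟨w₂, J₂, hR⟩ := MN.exists_ref hL hq hF
  set W := (1 + 1 / w) ^ (2 * N) with hW
  have hW0 : 0 < W := by positivity
  refine ⟨W * (2 ^ N * Real.exp (5 * N)), fun ε hε => ?_⟩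
  set t := W * (Real.exp (N * |σ|) * Real.exp (5 * N) * 10) with ht
  have ht0 : 0 < t := by positivity
  obtain ⟨J₃, hJ₃⟩ := MN.small_e (8 * N + 1) (Real.exp 1) (2 * b') (MN.cE L Λ N N * a)
    (ε := min (1 / 2) (ε / t)) (by positivity)
  refine ⟨max (max J₁ J₂) (max J₃ (q.R + 2)),
    fun J hJ M _ P v k s u ν o O hv hoff hle hk hs hO ho hθ' => ?_⟩
  simp only [ge_iff_le, max_le_iff] at hJ
  obtain ⟨⟨k1, k2⟩, k3, k4⟩ := hJ
  set z₀ := ((bare (geoD M P (ι := Empty) Empty.elim Empty.elim J) P).flowV s L q v o O K u J).z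
    with hz₀
  refine ⟨fun i => if |z₀ i - o| ≤ 1 / 2 then z₀ i else o, fun i => ?_,
    fun B ι _ _ y d n K' hm D hgap hK => ?_⟩
  · beta_reduce
    split_ifs with h1
    · exact h1
    · simp
  have D0 := dom0_of (by omega) D
  rw [mixJV_eq q v P B s O y d J, mixJ_eq par0 P B s 1 y d J]
  set g := geoD M (P * B) y d J with hg0
  have h3 : J < sc L J := by
    have := Nat.lt_pow_self (n := J) (show 1 < L by omega)
    unfold sc
    omega
  have h4 := sc_mono (L := L) (by omega) (show 1 ≤ J by omega)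
  have h5 : sc L 1 = 8 * L := by simp [sc]
  have hlo := D.lo
  have h6 : 16 * sc L J ≤ M := by omega
  have h7 : 16 * (q.R + 1) ≤ M := by omega
  obtain ⟨s0, s1⟩ := sepW_bare (g := g) D0
  have q2 := hQ g D0.ok h6 D.sep D.bd
  obtain ⟨F, FI⟩ := hD g k1 ⟨D0.ok, D0.on, h6, h7, D.sep⟩ hm D.bd D.hi v hv
    (fun X hX => hoff X fun x hx => (D0.fl x).trans (by rw [hX x hx, ite_self])) hle
  have F0 := (hD (bare g P) k1 ⟨MN.ok_bare D0.w, fun i => i.elim, h6, h7, s0⟩ (card_bare g P m)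
    D.bd0 D.hi v hv hoff hle).1
  have F1 := fun i => (hD (one g P i) k1 ⟨MN.ok_one D0.ok D0.w i, fun _ => D0.on i, h6, h7, s1 i⟩
    (card_one g P i hm) D.bd0 D.hi v hv hoff hle).1
  have far := fun i => far_rem (g := g) D0 (by omega) (s := s i)
    (mul_eq_zero_of_left (hs.rem i) _)
  obtain ⟨u', hu', hz⟩ := agreeV (g := g) (A' := P) (T := 7 * sc L J) (by omega)
    (by change 1 ≤ J; omega) D0.ok D0.w hq h7 le_rfl (by change _ ≤ M; omega) (s := s)
    (fun i => D0.eqv (s i).1 _ (by omega) (far i).2) (fun i => (far i).1) (u := u) (ν := ν)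
    ⟨fun i i' e => lt_of_le_of_lt (by change 7 * sc L J ≤ _; omega) (hs.sep i i' e),
      fun _ κ => κ.elim, hs.ch⟩
  replace FI := FI q2 k s u' ν o O hu' hO ho hθ'
  have hz' : (fun i => if |z₀ i - o| ≤ 1 / 2 then z₀ i else o) =
      (g.flowV s L q v o O K u' g.J).z := by
    have e : z₀ = (g.flowV s L q v o O K u' g.J).z := (hz v hv o O K hO).symm
    funext i
    rw [e, if_pos (FI.z i)]
  obtain ⟨G, A₀, N₀, f₀, hG, hf₀, D₀⟩ := hR J k2 _ le_rfl D0.hi
  have hn : n ≤ N ∧ Fintype.card ι ≤ N := by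
    have h1 : n ≤ (univ.filter fun f => flux B f = -1).card := by
      rw [← D.cnt]
      exact card_le_card fun f hf =>
        mem_filter.2 ⟨mem_univ _, Both.flux_B D.P_ok D.str.sign (mem_filter.1 hf).2⟩
    have := D.card
    omega
  have hν := fun i => nu_pos (hs.ch i) (by omega)
  have n1 : (n : ℝ) ≤ N := by exact_mod_cast hn.1
  have n2 : (Fintype.card ι : ℝ) ≤ N := by exact_mod_cast hn.2
  have n3 : (k : ℝ) ≤ N := by exact_mod_cast hk
  obtain ⟨r1, r2⟩ := finalV (g := g) (A' := P) (n := n) (σ := σ) (m := Fintype.card ι)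
    (e := min (1 / 2) (ε / t)) D0.ok D0.on D0.w D0.ne (by omega) hq hv hw hb'.le hh hO ho hν F FI F0
    F1
    (he (g.xt s) D0.ok.sign _ (by omega) Γ hΓ hgap _ g2)
    (hg (bare g P) D0.w _ (by omega) Γ hΓ D.gap _ g1)
    (fun i => hg (one g P i) D0.w _ (by omega) Γ hΓ D.gap _ g1)
    (WW_zero D0 (by omega) (by omega) F F0 F1)
    (err_sigV (g := g) D0 hv (by omega) (by change 80 ≤ 8 * sc L J; omega) hq h7 hw ha F F0 F1
      fun f hf => by
        have h1 := hσ _ _ _ _ _ _ _ D₀ _ hf₀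
        rw [← ss_eq D0 hq h7 hv hoff D₀ hG hf hf₀, hG] at h1
        exact h1) rfl
    (le_trans (by
      have a0 : 0 ≤ Real.exp (2 * (b' / 2 ^ J)) - 1 :=
        sub_nonneg.2 (Real.one_le_exp (by positivity))
      have a1 := cE_le (L := L) (Λ := Λ) hn.1 hn.2
      rw [mul_div_assoc 2]
      change _ * (_ * (Real.exp (2 * (b' / 2 ^ J)) - 1)) +
        MN.cE L Λ n (Fintype.card ι) * a / 2 ^ J ≤ _
      gcongr) (hJ₃ J k3)) (min_le_left _ _)
  have hy := abs_pos.2 D0.ne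
  have y1 : |Zw par0 (g.xt s).A 1| / |Zw par0 P 1| ≤ K' := (div_le_iff₀ hy).2 hK
  have y0 : 0 ≤ |Zw par0 (g.xt s).A 1| / |Zw par0 P 1| := by positivity
  have hl : (0 : ℝ) < sc L J := by exact_mod_cast (by omega : 0 < sc L J)
  have hp : 0 < ∏ i, ν i J := prod_pos fun i _ => hν i
  have x1 : Real.exp (4 * Fintype.card ι + k) ≤ Real.exp (5 * N) := Real.exp_le_exp.2 (by linarith)
  have x2 : Real.exp (n * σ) ≤ Real.exp (N * |σ|) := Real.exp_le_exp.2
    ((mul_le_mul_of_nonneg_left (le_abs_self σ) (Nat.cast_nonneg n)).trans (by gcongr))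
  have hK0 := y0.trans y1
  replace r1 := r1.trans (mul_le_mul_of_nonneg_left y1 (by positivity))
  replace r2 := r2.trans (mul_le_mul_of_nonneg_left y1 (by positivity))
  rw [hz']
  constructor
  · refine (div_out (N := 2 * N) hw hl hν (abs_nonneg _) (by omega) r1).trans ?_
    have e0 : 0 ≤ min (1 / 2) (ε / t) := by positivity
    have e1 := (le_div_iff₀ ht0).1 (min_le_right (1 / 2) (ε / t))
    generalize min (1 / 2) (ε / t) = e at e0 e1 ⊢
    calc _ ≤ W * (Real.exp (N * |σ|) * Real.exp (5 * N) * (10 * e) * K') /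
          (sc L J : ℝ) ^ Fintype.card ι * ∏ i, ν i J := by gcongr
      _ = e * t / (sc L J : ℝ) ^ Fintype.card ι * (K' * ∏ i, ν i J) := by rw [ht]; ring
      _ ≤ _ := by gcongr
  · have z1 : 1 ≤ 2 ^ N * |Z ^ Fintype.card ι| := by
      have z2 : (2 : ℝ) ^ Fintype.card ι ≤ 2 ^ N := pow_le_pow_right₀ one_le_two hn.2
      refine le_trans ?_ (mul_le_mul_of_nonneg_right z2 (abs_nonneg _))
      rw [abs_of_nonneg (by positivity), ← mul_pow]
      exact one_le_pow₀ (by linarith)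
    have z3 := div_out (N := 2 * N) hw hl hν (abs_nonneg _) (by omega) r2
    rw [abs_mul] at z3
    refine (le_mul_of_one_le_left (abs_nonneg _) z1).trans ?_
    rw [mul_assoc]
    refine (mul_le_mul_of_nonneg_left z3 (by positivity)).trans ?_
    calc _ ≤ 2 ^ N * (W * (Real.exp (5 * N) * K') / (sc L J : ℝ) ^ Fintype.card ι *
          ∏ i, ν i J) := by gcongr
      _ = _ := by ring

end

end Vale.Agent.P144Z.UM

namespace Vale.Agent.P144Z

theorem mainSU : MainSU := fun _ _ _ _ _ _ _ _ _ _ hL hq ha =>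
  ⟨UM.enU_of hL hq ha, fun hZ hF hσ => ⟨UM.mainU_of hL hq ha hZ hF hσ,
    fun _ _ _ hQ hD => UM.mainJU_of hL hq ha hZ hF hσ hQ hD⟩⟩

end Vale.Agent.P144Z
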