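import Vale.Agent.P144D.I.V.DefsL
import Vale.Agent.P144D.FD.Early2

/-!
The main estimates for an abstract class of boundaries and corrections of arbitrary range.
-/

namespace Vale.Agent.P144Z

open Finset Matrix

/-- The terms have total weighted size at most `γ` at each point. -/
def Cor.Wt {M : ℕ} [NeZero M] (c : Cor M) (σ γ : ℝ) : Prop :=
  ∃ b : Finset (Tor M) → ℝ, (∀ X n, |c X n| ≤ b X) ∧ R5.Pt σ b γ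

/-- The geometries of the flow. -/
structure Geo.Pre0 (g : Geo) (L R : ℕ) : Prop where
  ok : g.OkW
  on : ∀ k, (g.src k).on = true
  M_le : 16 * sc L g.J ≤ g.M
  R_le : 16 * (R + 1) ≤ g.M
  sep : g.SepW (8 * sc L g.J)

/-- For the fields of the class the scale can be changed. -/
def Cls.Sch (Q : Cls) (L : ℕ) (c : ℝ) : Prop :=
  ∀ g : Geo, g.OkW → 16 * sc L g.J ≤ g.M → g.SepW (8 * sc L g.J) → Q g.M g.A g.J → g.SchA L c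

/-- The bounds on the flow for the fields of the class, with at most `N` sources. -/
def EarlyQ (Q : Cls) (q : Par) (L N : ℕ) (σ γ δ a : ℝ) : Prop :=
  ∀ (g : Geo) (h : ℕ → ℝ), g.Pre0 L q.R → Fintype.card g.K ≤ N → Q g.M g.A g.J → W.FD.Rad L h →
    (∀ u : Cor g.M, u.Ok → u.Off g.A → u.Wt σ γ → W.FD.EFull g L q u h δ a) ∧
      W.FD.EFull g L par0 0 h δ 0

/-- The bounds on the flow hold with the same constants for all the classes `Q` with `G N Q`. -/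
def EngU (L : ℕ) (G : ℕ → Cls → Prop) : Prop :=
  ∃ δ > (0 : ℝ), ∃ A : ℝ, 1 ≤ A ∧ ∃ σ : ℝ, 0 ≤ σ ∧ ∃ η₀ > (0 : ℝ), ∀ η, 0 < η → η ≤ η₀ → ∀ R : ℕ,
    ∃ δ₀ > (0 : ℝ), ∀ q : Par, q.R = R → Crit L q η δ₀ → ∀ N Q, G N Q →
      EarlyQ Q q L N σ η δ (A * η)

/-- `MainQ` for at most `m` energies and weighted corrections. -/
def MainU (Q : Cls) (q : Par) (Zσ Zε : ℝ) (L m : ℕ) (σ γ : ℝ) : Prop :=
  ∀ (N Λ : ℕ) (Γ h : ℝ), 1 ≤ Γ → 0 < h → ∃ C : ℝ, ∀ ε > 0, ∃ J₀ : ℕ, ∀ J ≥ J₀,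
    ∀ (M : ℕ) [NeZero M] (P B : Gauge M) (Δ : Cor M) (ι : Type) [Fintype ι] [DecidableEq ι]
    (y : ι → Tor M) (d : ι → Fin 2) (n : ℕ) (K : ℝ), Fintype.card ι ≤ m →
    DomQ Q P B y d n L J N Λ Γ → Δ.Ok → Δ.Wt σ γ → Δ.Off P → 0 ≤ K →
    (geoD M (P * B) y d J).LastB (sc L J) h (K * |Zw par0 P 1|) →
      |mixC q Δ P B y d - Zσ ^ n * Zε ^ Fintype.card ι * mixC par0 0 P B y d| ≤
        ε / (sc L J : ℝ) ^ Fintype.card ι * K ∧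
      |mixC par0 0 P B y d| ≤ C / (sc L J : ℝ) ^ Fintype.card ι * K

/-- `EnQ` for at most `m` energies and weighted corrections. -/
def EnU (Q : Cls) (q : Par) (L m : ℕ) (σ γ : ℝ) : Prop :=
  ∀ (N Λ : ℕ) (Γ : ℝ), 1 ≤ Γ → ∀ ε > 0, ∃ J₀ : ℕ, ∀ J ≥ J₀, ∀ (M : ℕ) [NeZero M] (P B : Gauge M)
    (Δ Δ' : Cor M) (ι : Type) [Fintype ι] [DecidableEq ι] (y : ι → Tor M) (d : ι → Fin 2) (n : ℕ),
    Fintype.card ι ≤ m → DomQ Q P B y d n L J N Λ Γ → Δ.Ok → Δ.Wt σ γ → Δ.Off P → Δ'.Ok →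
    Δ'.Wt σ γ → Δ'.Off P → ∀ k, sc L J * |enC q Δ P (y k) (d k) - enC q Δ' P (y k) (d k)| ≤ ε

/-- `MainJV` for at most `m` energies and weighted corrections. -/
def MainJU (Q : Cls) (q : Par) (Zσ Zε : ℝ) (L m : ℕ) (c' η₁ σ γ : ℝ) : Prop :=
  ∀ K : ℕ, ∃ θ > 0, ∀ (N Λ : ℕ) (Γ : ℝ), 1 ≤ Γ → ∃ C : ℝ, ∀ ε > 0, ∃ J₀ : ℕ, ∀ J ≥ J₀,
    ∀ (M : ℕ) [NeZero M] (P : Gauge M) (v : Cor M) (k : ℕ) (s : Fin k → Tor M × Fin 4)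
    (u : Fin k → ℕ → Tor M × Fin 4 → ℝ) (ν : Fin k → ℕ → ℝ) (o : ℝ)
    (O : Fin k → (Tor M × Fin 2 → Bool) → ℝ), v.Ok → v.Off P → v.Wt σ γ → k ≤ N →
    MkDat P s u ν L J c' η₁ → LocO s K O → |o| ≤ 1 → (∀ i n, |O i n - o| ≤ θ) →
    ∃ z : Fin k → ℝ, (∀ i, |z i - o| ≤ 1 / 2) ∧
      ∀ (B : Gauge M) (ι : Type) [Fintype ι] [DecidableEq ι] (y : ι → Tor M) (d : ι → Fin 2)
      (n : ℕ) (K' : ℝ), Fintype.card ι ≤ m → DomQ Q P B y d n L J N Λ Γ →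
      (∀ φ, φ ⬝ᵥ φ ≤ (Γ * sc L J) ^ 2 * ((Dm (P * B) *ᵥ φ) ⬝ᵥ (Dm (P * B) *ᵥ φ))) →
      |Zw par0 (P * B) 1| ≤ K' * |Zw par0 P 1| →
        |mixJV q v P B s O y d -
          (∏ i, z i) * Zσ ^ n * Zε ^ Fintype.card ι * mixJ par0 P B s 1 y d| ≤
          ε / (sc L J : ℝ) ^ Fintype.card ι * (K' * ∏ i, ν i J) ∧
        |mixJ par0 P B s 1 y d| ≤ C / (sc L J : ℝ) ^ Fintype.card ι * (K' * ∏ i, ν i J)

/-- The main estimates hold for corrections a little larger than those of the regions. -/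
def UnivU (Q : Cls) (q : Par) (Zσ Zε : ℝ) (L N : ℕ) : Prop :=
  ∃ σ γ θ : ℝ, 0 ≤ σ ∧ 0 < θ ∧ (∀ (M : ℕ) [NeZero M] (R : Reg M),
    (R.cor q).Ok ∧ (R.cor q).Off R.pw ∧ (R.cor q).Wt σ γ) ∧
    MainU Q q Zσ Zε L N σ (γ + θ) ∧ EnU Q q L N σ (γ + θ)

/-- The main estimates with insertions hold for small corrections. -/
def UnivJU (Q : Cls) (q : Par) (Zσ Zε : ℝ) (L N : ℕ) (c' η₁ : ℝ) : Prop :=
  ∃ σ γ : ℝ, 0 ≤ σ ∧ 0 < γ ∧ MainJU Q q Zσ Zε L N c' η₁ σ γ ∧ EnU Q q L N σ γ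

/-- Universality for all the classes of an engine, with the constants of the plane. -/
def GenJU : Prop :=
  ∃ ε₁ > (0 : ℝ), ∀ c' : ℝ, 1 ≤ c' → ∃ η₁ > (0 : ℝ), ∃ L₀ : ℕ, ∀ L ≥ L₀, ∀ G, EngU L G →
    (∀ (N : ℕ) (Q : Cls) (c : ℝ), 1 ≤ c → c ^ 2 ≤ ε₁ * L → G N Q → Q.Sch L c →
      UnivU Q par0 1 1 L N ∧ ∃ Zσ Zε : ℝ, UnivJU Q par0 Zσ Zε L N c' η₁) ∧
    ∀ ε > 0, ∃ η₀ > 0, ∀ R : ℕ, ∃ δ₀ > 0, ∀ q : Par, q.R = R → Crit L q η₀ δ₀ →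
      ∃ Zσ Zε : ℝ, |Zσ - 1| < ε ∧ |Zε - 1| < ε ∧ MainOK q Zσ Zε ∧
        ∀ (N : ℕ) (Q : Cls) (c : ℝ), 1 ≤ c → c ^ 2 ≤ ε₁ * L → G N Q → Q.Sch L c →
          UnivU Q q Zσ Zε L N ∧ UnivJU Q q Zσ Zε L N c' η₁

end Vale.Agent.P144Z
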