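import Vale.Agent.P144U.Fl.Init
import Vale.Agent.P144D.I.V.Flow
import Vale.Agent.P144D.FD.Main

/-!
The bounds on the flows for the classes of an engine.
-/

namespace Vale.Agent.P144Z

open Finset Matrix

namespace FlU

open W W.FD Vale.Agent.P144Z.FM

variable {L R : ℕ} {g : Geo} {h : ℕ → ℝ} {δ : ℝ}

theorem src_far (hL : 1 ≤ L) (hp : g.Pre0 L R) :
    ∀ k k', k ≠ k' → 8 < tdist (g.src k).y (g.src k').y := fun k k' hk => by
  have := hp.sep.ss k k' hk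
  have := eight_le_sc hL g.J
  omega

/-- The flow of the nearest-neighbour model is trivial. -/
theorem flow0 (hL : 1 ≤ L) (hδ : 0 < δ) (hp : g.Pre0 L R) (hr : Rad L h)
    (H : W.FD.EFull g L par0 0 h δ 0) :
    ∀ j ≤ g.J, g.flow L par0 0 j = g.srcSt fun _ => -2 * tc := by
  have hz : ∀ j ≤ g.J, (g.flow L par0 0 j).z = fun _ => -2 * tc := by
    intro j hj
    induction j with
    | zero =>
      funext k
      change g.z0 par0 k = _
      simp [Geo.z0, hp.on, par0]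
    | succ j ih =>
      funext k
      have h1 := H.z j (by omega) k
      rw [zero_div, Geo.flowC_zero, Geo.flowC_zero, ih (by omega)] at h1
      have h2 := le_of_mul_le_mul_left (h1.trans (mul_zero δ).ge) hδ
      exact sub_eq_zero.1 (abs_nonpos_iff.1 h2)
  intro j hj
  have h1 := H.df j hj
  rw [zero_div, Geo.flowC_zero] at h1
  rw [← hz j hj]
  exact eq_srcSt (by have := eight_le_sc hL j; omega) (hr.pos hL j) (beta_pos hL hδ (hr.pos hL j) j)
    (W.Geo.wf_flow hp.ok L par0 0 j) (W.Geo.free_flow hp.ok L j) h1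

theorem intg_src (hL : 1 ≤ L) (hp : g.Pre0 L R) {j : ℕ} (hj : j < g.J) (z : g.K → ℝ)
    {U : Finset g.P} (hU : ¬ g.Exc U) : g.intg (sc L j) (L * sc L j) (g.srcSt z) U = 0 := by
  have h1 : sc L j ≤ sc L (j + 1) := sc_mono hL (by omega)
  have h2 : sc L (j + 1) ≤ sc L g.J := sc_mono hL hj
  have h3 := eight_le_sc hL (j + 1)
  rw [← sc_succ, Geo.intg, Geo.Cl_srcSt (ℓ' := sc L (j + 1))
    (covP_anti (Vale.Agent.P144Z.C.Dm_anti _) _ _)
    (fun s s' hs => covP_range g.A h1 (by omega) hs)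
    (fun k k' hk => by have := hp.sep.ss k k' hk; omega), srcSt_H z hU, map_zero]

theorem early0 (hL : 1 ≤ L) (hδ : 0 < δ) (hp : g.Pre0 L R) (hr : Rad L h)
    (H : W.FD.EFull g L par0 0 h δ 0) : ∀ j ≤ g.J, ∀ U, ¬ g.Exc U → g.cs L par0 j U = 0 := by
  intro j hj U hU
  cases j with
  | zero =>
    change g.noF (g.W0 par0 U) = 0
    rw [← Geo.W0C_zero]
    rcases U.eq_empty_or_nonempty with rfl | hne
    · rw [W.R3W.W0C_empty hp.ok (Cor.ok_zero _), map_zero]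
    · have h1 := anch_eq_zero H.W0 (fun _ => RN.pn_nonneg _) hne
      rw [Wsrc_eq _ hU, sub_zero] at h1
      have := hr.pos hL 0
      rw [RN.pn_def (by norm_num) this (by positivity)
        (W.Geo.W0C_mem hp.ok (Cor.ok_zero _) par0 U) h1, map_zero]
  | succ j =>
    rw [cs_succ, flow0 hL hδ hp hr H j (by omega), intg_src hL hp (by omega) _ hU, map_zero]

open Classical in
theorem early1 (hL : 1 ≤ L) (hp : g.Pre0 L R) (hr : Rad L h) {q : Par} {u : Cor g.M}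
    (hu : u.Ok) {a w : ℝ} (ha : 0 ≤ a) (H : W.FD.EFull g L q u h δ a) (hw : 0 < w)
    (hwh : ∀ j, w * L * h j ^ 2 ≤ δ) : ∀ j ≤ g.J, Anch (sc L j) (2 * L)
      (fun U => if g.Exc U then 0 else g.ps (w * sc L j) U (g.csC L q u j U)) (2 * a / 2 ^ j) := by
  have hL' : (1 : ℝ) ≤ L := by exact_mod_cast hL
  have hs : ∀ j, (0 : ℝ) < sc L j := fun j => by have := eight_le_sc hL j; positivity
  intro j hj
  cases j with
  | zero =>
    rw [sc_zero]
    refine anch_mono H.W0 (fun U => ?_) (by rw [pow_zero, div_one]; linarith)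
    split_ifs with hU
    · exact RN.pn_nonneg _
    · rw [Wsrc_eq _ hU, sub_zero]
      have := hr.pos hL 0
      refine W.FD.ps_le hp.ok.sign (by norm_num) this (by positivity) ?_ (W.Geo.W0C_mem hp.ok hu q U)
      rw [le_div_iff₀ (by positivity)]
      have h1 : w * h 0 ^ 2 ≤ w * L * h 0 ^ 2 := by
        rw [mul_assoc]
        exact mul_le_mul_of_nonneg_left (le_mul_of_one_le_left (by positivity) hL') hw.le
      have := hwh 0
      push_cast
      linarith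
  | succ j =>
    refine anch_mono (H.intg j (by omega)) (fun U => ?_) (by rw [pow_succ]; field_simp; rfl)
    split_ifs with hU
    · exact RN.pn_nonneg _
    · rw [intg_src hL hp (by omega) _ hU, sub_zero, csC_succ]
      have := hr.pos hL j
      refine W.FD.ps_le hp.ok.sign (by have := eight_le_sc hL j; omega) (by positivity)
        (mul_pos hw (hs _)) ?_
        ((W.Geo.wf_flowC hp.ok hu L q j).Cl_mem (covP_anti (Vale.Agent.P144Z.C.Dm_anti _) _ _) U)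
      rw [le_div_iff₀ (by positivity), sc_succ]
      push_cast
      have := mul_le_mul_of_nonneg_right (hwh j) (hs j).le
      linarith

/-- The coefficient of a source is universal. -/
theorem z_eq (hL : 8 ≤ L) {q : Par} (hq : q.Ok) (hp : g.Pre0 L q.R) {u : Cor g.M} (hu : u.Ok)
    (hf : u.Off g.A) {j : ℕ} (hj : j ≤ g.J) (k : g.K) : (g.flowC L q u j).z k = zr L q j := by
  have h1 : sc L j ≤ sc L g.J := sc_mono (by omega) hj
  have h2 := eight_le_sc (L := L) (by omega) j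
  have h3 := hp.M_le
  have hR : 16 * (q.R + 1) ≤ mr L q.R j := by unfold mr; omega
  have hM : 16 * sc L j ≤ mr L q.R j := by unfold mr; omega
  have hen := (hp.ok.src k).en (hp.on k)
  have key : ((gr L q.R j (g.src k).dir).flow L q 0 j).z () = (g.flowC L q u j).z k := by
    rw [← Geo.flowC_zero]
    refine W.Geo.ag_zC (c := (g.src k).y) (c' := 0) (T := 3 * sc L j) hL hp.ok
      (geo1_ok _ _ _ _).okW hu (Cor.ok_zero _) hq hp.R_le hR
      (W.R6.matchC_flat hp.ok.sign hf (geo1_ok _ _ _ _).sign (by omega) (by omega)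
        (by change _ ≤ mr L q.R j; omega) (flat_mono (hp.sep.fs k) (by omega))
        fun f _ => flux_one _) j
      ⟨?_, hen.1.symm, hen.2.symm, (hp.on k).symm, rfl, fun i hi => ?_⟩ (hp.on k)
      (by rw [tdist_self, zero_add])
    · change (0 : Tor (mr L q.R j)) = _
      simp [shf, lft, prj]
      rfl
    · change _ ↔ i < j
      omega
  rw [← key]
  obtain h | h : (g.src k).dir = 0 ∨ (g.src k).dir = 1 := by
    generalize (g.src k).dir = d
    fin_cases d <;> simp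
  · rw [h]; rfl
  · rw [h]; exact Geo.ag_dir hL hq _ hR j j hM 0

/-- The bounds on the corrected flow from the bounds of the induction. -/
theorem flowQ_of {Q : Cls} {q : Par} {m : ℕ} {σ γ a a' Z : ℝ} (hL : 16 ≤ L) (hq : q.Ok)
    (hδ : 0 < δ) (ha : 0 ≤ a) (ha' : 2 * a ≤ a') (hE : EarlyQ Q q L m σ γ δ a)
    (hz1 : |Z * (-2 * tc)| ≤ 2) (hz2 : ∀ j, |zr L q j - Z * (-2 * tc)| ≤ 1 / 2 ^ j) :
    FlowQ Q q L m σ γ Z a' := by
  obtain ⟨Cl, hCl, hloc⟩ := W.Geo.pn_local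
  obtain ⟨Cs, hCs, hsrc⟩ := W.Geo.R8.df_srcSt
  have hL1 : 1 ≤ L := by omega
  have hL0 : (0 : ℝ) < L := by exact_mod_cast hL1
  have hL' : (1 : ℝ) ≤ L := by exact_mod_cast hL1
  intro Λ H hH
  obtain ⟨p, hp⟩ := pow_unbounded_of_one_lt H (one_lt_two (α := ℝ))
  have hr := rad_min hL1 p
  have h2 : (1 : ℝ) ≤ (L : ℝ) ^ 2 := one_le_pow₀ hL'
  set h := (L : ℝ) ^ 2 * 2 ^ p with hh
  have hh0 : 0 < h := by positivity
  have hHh : H ≤ h := hp.le.trans (le_mul_of_one_le_left (by positivity) h2)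
  obtain ⟨w, hw0, hw1, hw2⟩ : ∃ w > 0, w * L * h ^ 2 ≤ δ ∧ 2 * (Cl * w * h ^ 2) ≤ 1 := by
    refine ⟨min (δ / (L * h ^ 2)) (1 / (2 * Cl * h ^ 2)), by positivity, ?_, ?_⟩
    · rw [mul_assoc, ← le_div_iff₀ (by positivity)]
      exact min_le_left _ _
    · have := min_le_right (δ / (L * h ^ 2)) (1 / (2 * Cl * h ^ 2))
      rw [le_div_iff₀ (by positivity)] at this
      linarith
  refine ⟨w, hw0, (32 * Λ + 1) ^ 2 * (2 * a + Cs * Real.exp L * δ), by positivity, p,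
    fun g hJ hg hm hQ hM u hu hf hs => ?_⟩
  obtain ⟨H1, H0⟩ := hE g _ hg hm hQ hr
  replace H1 := H1 u hu hf hs
  have hwh : ∀ j, w * L * ((L : ℝ) ^ 2 * 2 ^ min j p) ^ 2 ≤ δ := fun j => by
    have h3 : (2 : ℝ) ^ min j p ≤ 2 ^ p := pow_le_pow_right₀ one_le_two (min_le_right _ _)
    refine le_trans ?_ hw1
    rw [hh]
    gcongr
  have h8 := eight_le_sc hL1 g.J
  have hs0 : (0 : ℝ) < sc L g.J := by positivity
  have hd := H1.df g.J le_rfl
  have hb := H1.bf g.J le_rfl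
  simp only [min_eq_right hJ] at hd hb
  have hβ := beta_pos hL1 hδ hh0 g.J
  have hwβ : w * sc L g.J ≤ δ * sc L g.J / h ^ 2 := by
    rw [le_div_iff₀ (by positivity), mul_right_comm]
    refine mul_le_mul_of_nonneg_right (le_trans ?_ hw1) hs0.le
    rw [mul_assoc]
    exact mul_le_mul_of_nonneg_left (le_mul_of_one_le_left (by positivity) hL') hw0.le
  have wf := W.Geo.wf_flowC hg.ok hu L q g.J
  have hM4 : 4 * sc L g.J ≤ g.M := by have := hg.M_le; omega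
  refine ⟨⟨H1.init, H1.ex⟩, ⟨H0.init, H0.ex⟩, fun j hj => anch_le
    (early1 hL1 hg hr hu ha H1 hw0 hwh j hj) (by gcongr), early0 hL1 hδ hg hr H0,
    by rw [flow0 hL1 hδ hg hr H0 _ le_rfl, W.FD.sum_H_src], ?_, fun k => ?_⟩
  · refine (RN.pn_mono (by omega) hH (by positivity) hHh hwβ subset_rfl
      (sub_mem (W.FD.sum_H_mem wf) (W.FD.sum_bE_mem fun _ => Z * (-2 * tc)))).trans
      ((W.FD.pn_sum_H (by omega) hh0 hβ hM hL0.le wf (hsrc L g hg.ok.sign _ h8 hM4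
        (W.Geo.R8.sepW_mono hg.sep (by omega)) h δ hh0 hδ _ wf _ (fun _ => Z * (-2 * tc))
        (1 / 2 ^ g.J) _ (by positivity)
        (fun k => by rw [z_eq (by omega) hq hg hu hf le_rfl]; exact hz2 _) hd) hb).trans ?_)
    have h3 : a / 2 ^ g.J / 2 ^ g.J ≤ a / 2 ^ g.J := div_pow_le (by positivity) _
    rw [mul_div_assoc (((32 : ℝ) * Λ + 1) ^ 2)]
    refine mul_le_mul_of_nonneg_left ?_ (sq_nonneg _)
    have h4 : (2 * a + Cs * Real.exp L * δ) / 2 ^ g.J =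
        a / 2 ^ g.J + Cs * Real.exp L * δ * (1 / 2 ^ g.J) + a / 2 ^ g.J := by ring
    linarith
  · have hβ' : 0 < w * (sc L g.J : ℝ) := mul_pos hw0 hs0
    have h3 := (hloc g hg.ok.sign _ h _ h8 hM4 hh0 hβ' _
      (flat_mono (hg.sep.fs k) (by omega))).2.2.2 k rfl
    rw [show Cl * (w * sc L g.J) * h ^ 2 / sc L g.J = Cl * w * h ^ 2 by field_simp] at h3
    rw [RN.pn_smul (by omega) hH hβ']
    exact (mul_le_mul hz1 ((RN.pn_mono (by omega) hH hβ' hHh le_rfl (subset_univ _)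
      (Geo.bE_mem k)).trans h3) (RN.pn_nonneg _) zero_le_two).trans hw2

theorem early_mono {Q : Cls} {q : Par} {m : ℕ} {σ σ' γ γ' a : ℝ} (H : EarlyQ Q q L m σ γ δ a)
    (h1 : σ ≤ σ') (h2 : γ' ≤ γ) : EarlyQ Q q L m σ' γ' δ a := fun g h a1 a2 a3 a4 =>
  ⟨fun u b1 b2 b3 => (H g h a1 a2 a3 a4).1 u b1 b2 (b3.mono h1 h2), (H g h a1 a2 a3 a4).2⟩

end FlU

open Geo W.FD FM Vale.Agent.P144Z.IO IV in
/-- The bounds on the flows for the classes of an engine. -/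
theorem flowSU : FlowSU := by
  obtain ⟨ε₁, hε₁, hS⟩ := step_I
  refine ⟨ε₁, hε₁, fun c' hc' => ?_⟩
  obtain ⟨η₁, hη₁, L₀, hS⟩ := hS c' hc'
  refine ⟨η₁, hη₁, max L₀ 16, fun L hL G ⟨δ₁, hδ₁, A, hA, σ₁, hσ₁, η₃, hη₃, hE⟩ => ?_⟩
  have hL16 : 16 ≤ L := le_of_max_le_right hL
  have hL1 : 1 ≤ L := by omega
  have hL0 : (0 : ℝ) < L := by exact_mod_cast hL1
  have h2 : (1 : ℝ) ≤ (L : ℝ) ^ 2 := one_le_pow₀ (by exact_mod_cast hL1)
  obtain ⟨C, hC, hS⟩ := hS L (le_of_max_le_left hL)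
  obtain ⟨β₁, hβ₁, hI0⟩ := init_I L ((L : ℝ) ^ 2) hL0.le (by positivity)
  obtain ⟨β₂, hβ₂, σ₂, hσ₂, hI⟩ := init_VU L ((L : ℝ) ^ 2) hL0.le (by positivity)
  obtain ⟨δ, hδ, d1, d2, d3, d4⟩ := exists_delta hδ₁ hC (lt_min hβ₁ hβ₂)
  obtain ⟨E, hEd, hE1⟩ : ∃ E, E = C * (2 * C + 8 * (C * A) + 2 * A) ∧ A ≤ E := by
    have h3 : 0 ≤ 2 * C + 8 * (C * A) := by positivity
    exact ⟨_, rfl, le_trans (by linarith) (le_mul_of_one_le_left (by positivity) hC)⟩
  have hE2 : 0 < E := by linarith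
  refine ⟨2 * A + 60000, by linarith, max σ₁ σ₂, le_max_of_le_left hσ₁,
    min η₃ (min (1 / 20) (δ / (8 * E))), by positivity, fun η hη hη0 R => ?_⟩
  have e1 : η ≤ 1 / 20 := hη0.trans ((min_le_right _ _).trans (min_le_left _ _))
  have e2 : 8 * (E * η) ≤ δ := by
    rw [← mul_assoc, mul_comm, ← le_div_iff₀ (by positivity)]
    exact hη0.trans ((min_le_right _ _).trans (min_le_right _ _))
  have e5 : A * η ≤ E * η := mul_le_mul_of_nonneg_right hE1 hη.le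
  have e6 : 0 ≤ A * η := by positivity
  have e7 : η / (2 * A + 60000) ≤ η / 60000 := by gcongr; linarith
  obtain ⟨δ₃, hδ₃, hE⟩ := hE η hη (hη0.trans (min_le_left _ _)) R
  obtain ⟨C₀, hC₀, hI0⟩ := hI0 0
  obtain ⟨CR, hCR, hI⟩ := hI R
  refine ⟨min δ₃ (η / (3 * CR)), by positivity, fun q hR hq Z hz1 hz2 m Q hG => ?_⟩
  replace hE := hE q hR ⟨hq.ok, hq.small.trans (min_le_left _ _), hq.bulk, hq.x, hq.Z⟩ m Q hG
  have hq4 : q.Small (η / (3 * CR)) := hq.small.trans (min_le_right _ _)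
  have e8 : 2 * (A * η) ≤ (2 * A + 60000) * η := by linarith
  refine ⟨FlU.flowQ_of hL16 hq.ok hδ₁ e6 e8 (FlU.early_mono hE (le_max_left _ _) le_rfl) hz1 hz2,
    fun c hc1 hc2 K => ?_⟩
  replace hE := FlU.early_mono (γ' := η / (2 * A + 60000)) hE (le_max_left σ₁ σ₂) (by linarith)
  have hD := FlU.flowQ_of hL16 hq.ok hδ₁ e6 e8 hE hz1 hz2
  obtain ⟨C₀', hC₀', hI0⟩ := hI0 K
  obtain ⟨CK, hCK, hI⟩ := hI K
  refine ⟨η / (3 * CK), by positivity, fun Λ H hH => ?_⟩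
  have e3 : CR * (η / (3 * CR)) + 20000 * (η / 60000) + CK * (η / (3 * CK)) = η := by
    field_simp
    norm_num
  obtain ⟨w₂, hw₂, b₂, hb₂, J₂, hD⟩ := hD Λ H hH
  obtain ⟨p, hp⟩ := pow_unbounded_of_one_lt H (one_lt_two (α := ℝ))
  have hr := rad_min hL1 p
  obtain ⟨w, hw0, hw1, hw2⟩ : ∃ w > 0, w ≤ w₂ ∧ w * ((L : ℝ) ^ 2 * 2 ^ p) ^ 2 ≤ δ :=
    ⟨min w₂ (δ / ((L : ℝ) ^ 2 * 2 ^ p) ^ 2), by positivity, min_le_left _ _, by
      rw [← le_div_iff₀ (by positivity)]; exact min_le_right _ _⟩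
  refine ⟨w, hw0, b₂ + (32 * Λ + 1) ^ 2 * (2 * (C * η) + 8 * (C * (A * η))), by positivity,
    max (max J₂ p) (K + 1), fun g hJ hg hm hQ hM v hv hvo hvl => ⟨flowD_mono hL1 hg.ok hv hH hw0 hw1
      (le_add_of_nonneg_right (by positivity))
      (hD g (le_of_max_le_left (le_of_max_le_left hJ)) hg hm hQ hM v hv hvo hvl),
      fun hsch k s u ν o O hpre hO ho hθ => ?_⟩⟩
  have hJp : p ≤ g.J := le_of_max_le_right (le_of_max_le_left hJ)
  have hJK : K + 1 ≤ g.J := le_of_max_le_right hJ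
  have h8 := eight_le_sc hL1 g.J
  have hK : K ≤ sc L g.J := le_sc_of_lt (by omega) hJK
  have hc0 := crit_par0 L 0 0 le_rfl le_rfl
  have hsep : ∀ i i', i ≠ i' → 2 * K < tdist (s i).1 (s i').1 := fun i i' hi => by
    have := hpre.sep i i' hi
    omega
  have hfar : ∀ i κ, 8 < tdist (g.src κ).y (s i).1 := fun i κ => by
    have := hpre.far i κ
    omega
  have hβ0 : 0 < δ * (8 : ℕ) / ((L : ℝ) ^ 2) ^ 2 := by positivity
  have hβ1 : δ * (8 : ℕ) / ((L : ℝ) ^ 2) ^ 2 ≤ min β₁ β₂ :=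
    (div_le_self (by positivity) (one_le_pow₀ h2)).trans (by push_cast; linarith)
  have hw4 : ∀ i, 0 < δ / ((L : ℝ) ^ 2 * ν i 0) ∧ δ / ((L : ℝ) ^ 2 * ν i 0) ≤ min β₁ β₂ :=
      fun i => by
    have k1 : (1 : ℝ) ≤ √8 := Real.one_le_sqrt.2 (by norm_num)
    rw [(hpre.ch i).nu0]
    exact ⟨by positivity, (div_le_self hδ.le (one_le_mul_of_one_le_of_one_le h2 k1)).trans
      (by linarith)⟩
  obtain ⟨i1, i2⟩ := hI q hR hq.ok _ _ _ hq4 (by positivity) (by rw [e3]; linarith) g hg.ok hg.on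
    (FlU.src_far hL1 hg) v hv (hvl.mono (le_max_right _ _) e7) k s o O hO ho hθ hsep hfar _ _ hβ0
    (hβ1.trans (min_le_right _ _)) fun i => ⟨(hw4 i).1, (hw4 i).2.trans (min_le_right _ _)⟩
  obtain ⟨i3, i4⟩ := hI0 par0 rfl hc0.ok 0 0 hc0.small le_rfl (by simp) g hg.ok hg.on
    (FlU.src_far hL1 hg) k s 1 1 (fun _ _ _ _ => rfl) (by simp) (by simp) hsep hfar _ _ hβ0
    (hβ1.trans (min_le_left _ _)) fun i => ⟨(hw4 i).1, (hw4 i).2.trans (min_le_left _ _)⟩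
  obtain ⟨H1, H0⟩ := hE g _ hg hm hQ hr
  refine flowV_of hL1 hg.ok hv hr (by omega) hM hC hδ d2 d4
    (hS g hg.ok.sign hg.M_le hg.sep c hc1 hc2 hsch k s u ν hpre)
    (bgV_of hL1 hg.ok hv hr (H1 v hv hvo hvl) hδ d1 e6 (by linarith) (z0_le e1 hq.x hq.Z))
    (bg_of hL1 hg.ok hr H0 hδ d1 le_rfl (by linarith)
      (z0_le (η := 0) (by norm_num) hc0.x hc0.Z))
    hpre.ch hO ho hη.le (by linarith) e6 (by linarith [hq.ok.Z_lo]) hq.Z le_rfl ?_ i1
    (szI_zero hr i2 e3.le) i3 (szI_zero hr i4 (by simp)) hH ?_ hw0 ?_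
    (le_add_of_nonneg_left hb₂.le)
  · refine le_trans (le_of_eq ?_) e2
    rw [hEd]
    ring
  · simp only [min_eq_right hJp]
    exact hp.le.trans (le_mul_of_one_le_left (by positivity) h2)
  · simpa only [min_eq_right hJp] using hw2

end Vale.Agent.P144Z
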