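import Vale.Agent.P144U.Rg.Sk
import Vale.Agent.P144D.I.V.Init

/-!
The initial step with a weighted correction.
-/

namespace Vale.Agent.P144Z

open Finset Matrix

section

variable {M : ℕ} [NeZero M] {c c' : Cor M} {σ σ' γ γ' δ : ℝ} {K : ℕ}

theorem Cor.Wt.nonneg (h : c.Wt σ γ) : 0 ≤ γ := by
  obtain ⟨b, h1, h2⟩ := h
  exact (sum_nonneg fun X _ => mul_nonneg ((abs_nonneg _).trans (h1 X fun _ => true))
    (Real.exp_pos _).le).trans (h2 0)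

theorem Cor.Wt.mono (h : c.Wt σ γ) (h1 : σ' ≤ σ) (h2 : γ ≤ γ') : c.Wt σ' γ' := by
  obtain ⟨b, h3, h4⟩ := h
  refine ⟨b, h3, fun y => le_trans (sum_le_sum fun X _ => ?_) ((h4 y).trans h2)⟩
  exact mul_le_mul_of_nonneg_left (Real.exp_le_exp.2 (mul_le_mul_of_nonneg_right h1
    (by positivity))) ((abs_nonneg _).trans (h3 X fun _ => true))

theorem Cor.Wt.add (h : c.Wt σ γ) (h' : c'.Wt σ γ') : (c + c').Wt σ (γ + γ') := by
  obtain ⟨b, h1, h2⟩ := h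
  obtain ⟨b', h3, h4⟩ := h'
  exact ⟨fun X => b X + b' X, fun X n => (abs_add_le _ _).trans (add_le_add (h1 X n) (h3 X n)),
    h2.add h4⟩

theorem Cor.Wt.of_le (hσ : 0 ≤ σ) (h : c.Le K γ) : c.Wt σ (W.R5.eR σ K * γ) := by
  obtain ⟨b, h1, h2, h3⟩ := h
  have h0 : ∀ X, 0 ≤ b X := fun X => (abs_nonneg _).trans (h1 X fun _ => true)
  refine ⟨b, h1, fun y => le_trans ?_ (mul_le_mul_of_nonneg_left (h3 y) (Real.exp_pos _).le)⟩
  rw [mul_sum]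
  refine sum_le_sum fun X hX => ?_
  rw [mul_comm]
  by_cases h5 : b X = 0
  · rw [h5, mul_zero, mul_zero]
  · refine mul_le_mul_of_nonneg_right (Real.exp_le_exp.2 (mul_le_mul_of_nonneg_left ?_ hσ)) (h0 X)
    exact_mod_cast Nat.add_le_add_left
      (R5.stein_le_of_ball fun x hx => h2 X h5 x hx y (mem_filter.1 hX).2) 1

theorem Cor.Wt.of_sm (hσ : 0 ≤ σ) (h : c.Sm K γ δ) :
    c.Wt σ (W.R5.eR σ 1 * γ + W.R5.eR σ (2 * K + 2) * δ) := by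
  obtain ⟨c₁, c₂, rfl, h1, h2⟩ := h
  exact (Cor.Wt.of_le hσ h1).add (Cor.Wt.of_le hσ h2)

theorem Cor.wt_zero (M : ℕ) [NeZero M] (σ : ℝ) (hγ : 0 ≤ γ) : Cor.Wt (0 : Cor M) σ γ :=
  ⟨0, fun _ _ => by simp, fun _ => by simpa using hγ⟩

end

section

open Vale.Agent.P144Z.Geo Vale.Agent.P144Z.R5

/-- The initial step with a weighted correction. -/
theorem initU : InitU := by
  intro τ h hτ hh
  have hk := kp0_nonneg (2 * h)
  have hσ : 0 ≤ τ + kp0 (2 * h) + 2 := by positivity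
  set σ := τ + kp0 (2 * h) + 2 with hσ'
  refine ⟨(1 / 96) / Real.exp (σ * (1 + (1 * (2 * 1 + 1) ^ 2 : ℕ))), by positivity, σ, hσ,
    fun R => ⟨10000 * cR σ R, by linarith [one_le_cR hσ R], ?_⟩⟩
  rintro q rfl hq δ γ hδ hC g hg c hc hw hon hsep β hβ hβ0
  have γ0 := hw.nonneg
  obtain ⟨d, hd1, hd2⟩ := hw
  obtain ⟨𝓛, h1, h2⟩ := W.Geo.exists_locSys hg.sign (by norm_num : 1 ≤ 8) hh hβ
  have hE := W.R5.isExp_E0 hg h1 h2 hh hβ (abs_w hq)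
  have hr := fun k => (mem_put_on (hg.src k) (hon k)).2.2
  have hu : ∀ k k' x, x ∈ g.put (g.src k).y (g.src k).Y → x ∈ g.put (g.src k').y (g.src k').Y →
      k = k' := by
    intro k k' x hx hx'
    by_contra hne
    have a1 := hsep k k' hne
    have a2 := hr k x hx
    have a3 := hr k' x hx'
    have a4 := tdist_triangle (g.src k).y x (g.src k').y
    rw [tdist_comm] at a2
    omega
  have d1 : Pt σ (fun X => (fS 𝓛).p X (W.R5.Hc g c X)) γ := hd2.mono (fun X => fS_le fun n => by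
    rw [W.R5.Hc, 𝓛.p_smul]
    exact (mul_le_of_le_one_right (abs_nonneg _) (𝓛.p_one X)).trans (hd1 X n)) le_rfl
  have b4 := mul_nonneg (zero_le_one.trans (one_le_cR hσ q.R)) (small_nonneg hδ)
  have b1 := ((pt_small (𝓛 := 𝓛) hσ hδ).add d1).mono
    (f' := fun X => (fS 𝓛).p X (Hu g q.R q.V q.μ X + W.R5.Hc g c X))
    (fun X => (fS 𝓛).p_add X _ _) le_rfl
  have b2 := (W.R5.pt_Hs hg h2 hh hβ hσ hr hu).mono (fun _ => le_rfl)
    ((mul_comm _ _).trans_le ((le_div_iff₀ (Real.exp_pos _)).1 hβ0))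
  have b3 := (b1.add b2).mono (f' := fun X => (fS 𝓛).p X (g.HinC q c X))
    (fun X => by rw [W.R5.HinC_eq]; exact (fS 𝓛).p_add X _ _) (by linarith : _ ≤ (1 / 48 : ℝ))
  have m0 := W.R3W.HinC_empty hg hc q
  have m1 : ∀ X, g.HinC q c X ∈ (fS 𝓛).sub X := fun X => by
    rw [W.R5.HinC_eq]
    exact add_mem (add_mem (Hu_mem _ _ _ X) (W.R5.Hc_mem hc X)) (W.R5.Hs_mem hg h1 X)
  refine ⟨(pt_cl exp_ev_injective hk hτ hE m0 m1 (by norm_num) b3).2.2, ?_⟩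
  have b7 := pt_cl_diff exp_ev_injective hk hτ hE m0 (W.R5.Hs_empty hg) m1
    (W.R5.Hs_mem hg h1) b3 (b2.mono (fun _ => le_rfl) (by norm_num))
    (b1.mono (fun X => by rw [W.R5.HinC_eq, add_sub_cancel_right]) le_rfl) (by linarith)
  refine anch_mono (b7.anch hτ fun _ => 𝓛.p_nonneg _ _) (fun U => ?_) (by linarith)
  rw [W.R5.Cl_Hs hg h1 h2 hh hβ q (abs_w hq) hon hu, h2, W0C]

end

namespace IV

open Mn R5 Vale.Agent.P144Z.IO

/-- The initial step with insertions and a weighted correction. -/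
theorem init_VU (τ h : ℝ) (hτ : 0 ≤ τ) (hh : 0 < h) : ∃ β₀ > 0, ∃ σ : ℝ, 0 ≤ σ ∧ ∀ R : ℕ,
    ∃ C : ℝ, 1 ≤ C ∧ ∀ K : ℕ, ∃ C' : ℝ, 1 ≤ C' ∧ ∀ q : Par, q.R = R → q.Ok → ∀ δ γ θ : ℝ,
    q.Small δ → 0 ≤ θ → C * δ + 20000 * γ + C' * θ ≤ 1 → ∀ g : Geo, g.OkW →
    (∀ κ, (g.src κ).on = true) → (∀ κ κ', κ ≠ κ' → 8 < tdist (g.src κ).y (g.src κ').y) →
    ∀ v : Cor g.M, v.Ok → v.Wt σ γ → ∀ (k : ℕ) (s : Fin k → g.P × Fin 4)
    (o : ℝ) (O : Fin k → g.Cfg → ℝ), LocO s K O → |o| ≤ 1 → (∀ i n, |O i n - o| ≤ θ) →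
    (∀ i i', i ≠ i' → 2 * K < tdist (s i).1 (s i').1) →
    (∀ i κ, 8 < tdist (g.src κ).y (s i).1) → ∀ (β : ℝ) (w : Fin k → ℝ), 0 < β → β ≤ β₀ →
    (∀ i, 0 < w i ∧ w i ≤ β₀) →
      NormedSpace.exp (∑ U, Cl ((g.xt s).E0 (q.x * q.Z)) (g.HinV s q v o O K) U) =
        (g.xt s).E0 (q.x * q.Z) (NormedSpace.exp (∑ X, g.HinV s q v o O K X)) ∧
      Anch 8 τ (fun U => g.pI s 8 h β w U ((g.initV s q v o O K).K U))
        (C * δ + 20000 * γ + C' * θ) := by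
  have hk := kp0_nonneg (2 * h)
  have hσ : 0 ≤ τ + kp0 (2 * h) + 2 := by positivity
  have e1 := W.R5.one_le_eR hσ
  have e2 := one_le_cR hσ
  obtain ⟨b₀, hb₀, hb₁⟩ : ∃ b₀ > (0 : ℝ),
      Real.exp ((τ + kp0 (2 * h) + 2) * (1 + (9 : ℕ))) * (2 * ((1 + 3 * h) * b₀)) ≤ 1 / 96 := by
    refine ⟨(1 / 96) / (Real.exp ((τ + kp0 (2 * h) + 2) * (1 + (9 : ℕ))) * (2 * (1 + 3 * h))),
      by positivity, ?_⟩
    rw [← mul_assoc, ← mul_assoc, mul_assoc _ 2, mul_div_cancel₀ _ (by positivity)]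
  refine ⟨b₀, hb₀, _, hσ, fun R => ⟨20000 * cR (τ + kp0 (2 * h) + 2) R, by linarith [e2 R],
    fun K => ⟨20000 * W.R5.eR (τ + kp0 (2 * h) + 2) K, by linarith [e1 K], ?_⟩⟩⟩
  rintro q rfl hq δ γ θ hδ hθ hC g hg hon hsep v hv hvl k s o O hO ho hOo hss hsk β w hβ hβ0 hw
  obtain ⟨𝓛, h1, h2⟩ := exists_locI s (by norm_num : 1 ≤ 8) hh hβ fun i => (hw i).1
  have hZ : |√q.Z| ≤ 2 := by
    rw [abs_of_nonneg (Real.sqrt_nonneg _)]
    exact Real.sqrt_le_iff.2 ⟨zero_le_two, by linarith [hq.Z_hi]⟩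
  have hb₃ : 0 ≤ 3 * h * b₀ := by positivity
  have ha := mul_nonneg (zero_le_one.trans (e2 q.R)) (small_nonneg hδ)
  have ha' := hvl.nonneg
  obtain ⟨d, hd1, hd2⟩ := hvl
  have hu : Pt (τ + kp0 (2 * h) + 2) (fun X => |q.μ| * vv g q.R q.V X)
      (cR (τ + kp0 (2 * h) + 2) q.R * δ) := by
    refine ((pt_vv hσ q.R q.V).mul (abs_nonneg q.μ)).mono (fun _ => le_rfl) ?_
    rw [mul_left_comm]
    exact mul_le_mul_of_nonneg_left hδ (zero_le_one.trans (e2 _))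
  have hb := mul_nonneg (zero_le_one.trans (e1 K)) hθ
  have key := V5.init_genV (g := g) (𝓛 := 𝓛) (E := (g.xt s).E0 (q.x * q.Z))
    (H := g.HinV s q v o O K) (H' := fun X n => g.emb s (g.HinC q v X n)) exp_ev_injective hk hτ
    (isExp_E0I hg.sign hh hβ h1 h2 (abs_w hq)) (E0_eq (g := g.xt s) _) hg hon hsep hss hsk
    (c := fun X n => O5.uS g q X n + v X n) (fun n => by rw [O5.uS_empty, hv.empty, add_zero])
    (fun X n n' hn => congrArg₂ (· + ·) (O5.uS_dep q X n n' hn)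
      (hv.dep X n n' fun e a1 a2 => hn e (mem_edg.2 ⟨a1, a2⟩)))
    (fun X n => (abs_add_le _ _).trans (add_le_add (O5.abs_uS q X n) (hd1 X n))) (hu.add hd2)
    (add_nonneg ha ha') hθ
    (β := (1 + 3 * h) * b₀) (by positivity) hZ ho hO hOo (fun κ => g.emb s (g.bv κ)) (g.eI s)
    (fun κ => by rw [← emb_mul, Geo.bv_sq, map_zero]) eI_sq (fun κ X hX => ⟨?_, ?_⟩)
    (fun i X hX => ⟨?_, ?_⟩) hb₁ (by linarith) (fun X n => ?_) fun X n => rfl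
  · refine ⟨key.1, anch_mono key.2 (fun U => le_of_eq ?_) (le_of_eq (by ring))⟩
    rw [h2]
    exact congrArg (fun F => g.pI s 8 h β w U (Cl ((g.xt s).E0 (q.x * q.Z)) (g.HinV s q v o O K) U -
      F - g.carI s (fun _ => √q.Z * o) U)) (Cl_emb0 _ _ U).symm
  · rw [h1]
    exact emb_elI (Geo.bv_mem hX).1
  · rw [h2, pI_emb (by norm_num) hh hβ (Geo.bv_mem hX).1]
    have a1 := W.Geo.pn_bv κ hg.sign (by norm_num : 1 ≤ 8) hh hβ hX
    linarith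
  · rw [h1]
    exact eI_mem hX
  · have a1 := pI_eI (by norm_num : 1 ≤ 8) hh hβ (fun i => (hw i).1) (Real.sqrt_nonneg _)
      (RN.dom_single g.A 8 (s i)) hX
    have a2 : √((8 : ℕ) : ℝ) ≤ 3 := Real.sqrt_le_iff.2 ⟨by norm_num, by norm_num⟩
    have a3 := mul_le_mul (hw i).2 (mul_le_mul_of_nonneg_left a2 hh.le) (by positivity) hb₀.le
    rw [h2]
    linarith
  · simp only [Geo.HinC, Geo.Hin, map_add, map_smul, map_sum, emb_one, O5.uS, add_smul]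
    exact add_right_comm _ _ _

end IV

end Vale.Agent.P144Z
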